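import Crest.Agent.X212.Unq6.Cy

/-!
# Row 212, DEG-UNIQ (helper6), part 2: uniqueness of the limit of a degeneration
-/

set_option autoImplicit false
set_option linter.unusedSectionVars false
noncomputable section
open scoped Manifold ContDiff Topology InnerProductSpace
open MeasureTheory Set Function Filter

namespace Crest.Agent.X212.Unq6
open An Sw Sob92 Cyf70 Sw.En3 Pb50
open M (Mf pm)
open Sm10 (DSid UniqP)
open Sm10.Dg (alC)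
open Sw21 (Lg)
open Cut71 (shf At pm_sq)

variable {κ lam ν : Type} [Fintype κ] [Fintype lam] [Fintype ν] [DecidableEq ν] {α : Type}
  {X X' : Mf 4} {nc nc' nr' : ℕ}

section nk
variable {e : En3 κ lam ν} {b : Bg X.I X.M κ lam ν nc} (K : Nk e b) {s : Bool}

theorem oc_J : K.J.OrdConnected :=
  ⟨fun _ h _ h' _ k => ⟨fun a ha => (h.1 a ha).trans_le k.1, fun a ha => k.2.trans_lt (h'.2 a ha)⟩⟩

theorem far_J (h : K.Inf s) {D : ℝ} : ∃ T, ∀ t, T < pm s * t → t ∈ K.deep D := by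
  refine ⟨|K.p.getD 0| + |K.q.getD 0| + D, fun t ht =>
    Sep15.S.mem_Jv_map.2 ⟨fun a ha => ?_, fun a ha => ?_⟩⟩
  all_goals
    cases s <;> simp only [Nk.Inf, pm, if_true, Bool.false_eq_true, if_false, Option.mem_def.1 ha,
      Option.getD_some, reduceCtorEq] at h ht ⊢
    linarith [le_abs_self a, neg_abs_le a, abs_nonneg (K.p.getD 0), abs_nonneg (K.q.getD 0)]

theorem lg_end (he : e.OK) (h : K.Inf s) {u : X.M → ℂ} (hu : Gau X.I u) (g : K.AsyG s u) {t : ℝ}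
    (ht : t ∈ K.J) : Lg e.Y.I fun y => u (K.ψ (y, t)) := by
  obtain ⟨T, g⟩ := g
  obtain ⟨T', k⟩ := far_J K h (D := 1)
  obtain ⟨r, h1, h2⟩ := (((Sm10.Dg.hh_nl K (fun _ hx => (sa_ψ K hx (hu.1 _)).sub contMDiffAt_const)
    g tendsto_id).cyl he one_pos (Sm10.Dg.far_win K h tendsto_id) 0 1 one_pos).and
    (eventually_ge_atTop T')).exists
  have q : pm s * (pm s * (r + 2)) = r + 2 := by rw [← mul_assoc, pm_sq, one_mul]
  have h3 := deep_J K one_pos (k (pm s * (r + 2)) (by linarith))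
  exact Sw21.Lg.cyl (u := fun z => u (K.ψ z)) (oc_J K).isPreconnected (fun z hz =>
    (sa_ψ K (K.mem_src.2 hz.2) (hu.1 _)).contMDiffWithinAt) (fun _ _ => hu.2 _) h3 ht
    (Sw21.Lg.one.near (sm_sl fun y => sa_ψ K (src K h3 y) (hu.1 _)) (fun _ => hu.2 _) fun y =>
      (h1.le (x := (y, _)) ⟨trivial, h3, by simp only [mem_ofPred_eq, id]; linarith⟩).trans_lt
        one_lt_two)

theorem psi_lt {g : e.Gen} (hg : g.OK) {v v' : e.YC} (h : Gd v) (h' : Gd v') (k : L v < L v') :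
    e.ψ (L v) < e.ψ (L v') := by
  obtain ⟨o, a⟩ := hg.all v h.crit
  obtain ⟨o', a'⟩ := hg.all v' h'.crit
  rw [h.inv _ _ (hg.crit o).1 a, h.inv _ _ (hg.crit o').1 a'] at k ⊢
  exact hg.sep _ _ k

end nk

variable {d : Dt κ lam ν} [Fintype d.𝓔] {Sl : Type} [Fintype Sl]
  {T' : Type} [NormedAddCommGroup T'] [NormedSpace ℝ T'] [FiniteDimensional ℝ T']
  {s' : StS d Sl X'} {ε : d.𝓔} {a a' : Sl} {b : Bool}

/-- the times of a neck -/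
def nJ (P : PcS d Sl X nc) (j : d.𝓔 × Sl) : Set ℝ := (P.nk j).elim ∅ fun K => K.J

/-- a configuration on a neck -/
def nC (P : PcS d Sl X nc) (j : d.𝓔 × Sl) (c : Cfg X.M κ ν) : (d.e j.1).ZC :=
  (P.nk j).elim ⟨0, 0⟩ fun K => K.pb c

/-- a gauge transformation on a neck -/
def nU (P : PcS d Sl X nc) (j : d.𝓔 × Sl) (u : X.M → ℂ) : (d.e j.1).Y.M × ℝ → ℂ :=
  (P.nk j).elim 1 fun K z => u (K.ψ z)

theorem nk_act {P : PcS d Sl X nc} (j : d.𝓔 × Sl) {c : Cfg X.M κ ν} {u : X.M → ℂ}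
    (hc : P.bg.Adm c) (hu : Gau X.I u) :
    (∀ z ∈ univ ×ˢ nJ P j, LG (IC (d.e j.1).Y.I) (nU P j u) z ∧
      At id (nC P j (P.bg.act u c)) ((d.e j.1).cyl.act (nU P j u) (nC P j c)) z) ∧
    ∀ t ∈ nJ P j, ((d.e j.1).Inv → L (sl (nC P j (P.bg.act u c)) t) = L (sl (nC P j c) t)) ∧
      fz (sl (nC P j (P.bg.act u c)) t) =
        (d.e j.1).cyl.act (fun z => nU P j u (z.1, t)) (fz (sl (nC P j c) t)) := by
  unfold nJ nC nU
  cases P.nk j with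
  | none => exact ⟨fun _ h => h.2.elim, fun _ h => h.elim⟩
  | some K => exact ⟨fun z hz => ⟨lg_ψ K (K.mem_src.2 hz.2) hu, pb_act K (K.mem_src.2 hz.2) u c⟩,
      fun t ht => ⟨fun i => i _ _ (eqv_pb K hc hu ht).1 (eqv_pb K hc hu ht).2,
        (congrArg fz (sl_pb_act K ht u c)).trans (sl_act _ fun y => sa_ψ K (src K ht y) (hu.1 _))⟩⟩

section half
variable {𝓕 : Fam s' nc' T'} (h : 𝓕.OK) {t : T'} (ht : t ∈ 𝓕.Q) {P : PcS d Sl X nc}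
  {φ φ' : OpenPartialHomeomorph X'.M X.M} {δ ρ ρ' : ℝ} {O : d.𝓔 × Sl → Prop} {π : d.𝓔 × Sl → Sl}
  {cc : Fin nc' → Fin nc} {J : Finset d.W} (H : Half P (𝓕.P t) ε a a' b φ δ ρ O π cc J)
include h ht H

theorem half_site {K' : Nk (d.e ε) s'.bg} (hK : K' ∈ s'.nk (ε, a')) :
    ∃ K : Nk (d.e ε) P.bg, P.nk (ε, a) = some K ∧
      (if b then K.p = K'.p.map (· + δ) else K.q = K'.q.map (· + δ)) ∧
      (∀ x, x ∈ φ.source ↔ (K'.tm x ∈ K'.J → K'.tm x + δ ∈ K.J)) ∧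
      ∀ y τ, τ ∈ K'.J → τ + δ ∈ K.J → φ (K'.ψ (y, τ)) = K.ψ (y, τ + δ) := by
  obtain ⟨K, h1, -⟩ := H.nk
  obtain ⟨K₁, h2, k⟩ := h.en t ht (ε, a') K' hK
  obtain ⟨-, h3, h4, h5, -⟩ := Cut71.half_nk H h1 h2
  simp only [Nd18.Nk.J, ng_p k, ng_q k, ng_ψ k, ng_tm k] at h3 h4 h5
  exact ⟨K, h1, h3, h4, h5⟩

theorem half_inf (i : s'.Inf (ε, a') !b) : P.Inf (ε, a) !b := by
  obtain ⟨K', h1, h2⟩ := i
  obtain ⟨K, h3, h4, -⟩ := half_site h ht H h1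
  refine ⟨K, h3, ?_⟩
  cases b
  exacts [h4.trans (congrArg _ h2), h4.trans (congrArg _ h2)]

theorem half_ends (j' : d.𝓔 × Sl) {b' : Bool} (i : s'.Inf j' b') : j' = (ε, a') ∨
    ∃ j, O j ∧ (j.1, π j) = j' ∧ P.Inf j b' := by
  obtain ⟨K₁, h1, h2⟩ := (inf_iff h ht _ _).2 i
  have n : ¬(𝓕.P t).Off j' := fun k => by
    obtain ⟨r, h3, h4⟩ := k K₁ h1
    cases b' <;> simp [Nk.Inf, h3, h4] at h2
  refine or_iff_not_imp_left.2 fun k => ?_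
  obtain ⟨j, h3, rfl⟩ := (H.sur j' k).resolve_left n
  obtain ⟨K, h4, K₂, h5, h6, h7, -⟩ := (H.oth j h3).2.2.resolve_left fun k => n k.2
  obtain rfl := Option.mem_unique h1 h5
  exact ⟨j, h3, rfl, K, h4, by simpa only [Nk.Inf, h6, h7] using h2⟩

theorem half_eq (H' : Half P (𝓕.P t) ε a a' b φ' δ ρ' O π cc J) (i : P.Inf (ε, a) b) (z : X'.M) :
    φ z = φ' z := by
  obtain ⟨K, h1, h2⟩ := i
  obtain ⟨-, -, K', h3, -⟩ := H.nk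
  obtain ⟨a1, a2, a3, a4, -⟩ := Cut71.half_nk H h1 h3
  obtain ⟨-, -, a5, a6, -⟩ := Cut71.half_nk H' h1 h3
  have k : ∀ τ ∈ K'.J, τ + δ ∈ K.J := fun τ hτ => by
    cases b <;> simp only [Nk.Inf, if_true, Bool.false_eq_true, if_false] at h2 a2
    · refine ⟨by simp [h2], fun r hr => ?_⟩
      obtain ⟨r, h4, rfl⟩ := Option.mem_map.1 (a2 ▸ hr)
      linarith [hτ.2 r h4]
    · refine ⟨fun r hr => ?_, by simp [h2]⟩
      obtain ⟨r, h4, rfl⟩ := Option.mem_map.1 (a2 ▸ hr)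
      linarith [hτ.1 r h4]
  obtain ⟨T, h4⟩ := far_J K' a1 (D := 1)
  have h5 := deep_J K' one_pos (h4 (pm b * (T + 1)) (by rw [← mul_assoc, pm_sq]; linarith))
  obtain ⟨y⟩ : Nonempty (d.e ε).Y.M := inferInstance
  have := h.site.con
  exact Sw21.iso_eq H.lit.iso H'.lit.iso (eq_univ_of_forall fun x => (a3 x).2 (k _))
    (eq_univ_of_forall fun x => (a5 x).2 (k _))
    ((a4 y _ h5 (k _ h5)).trans (a6 y _ h5 (k _ h5)).symm) z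

end half

theorem fam_nk {σ' : Cel s' nc' nr' T'} (h : σ'.OK) (x : σ'.Pnt) {j : d.𝓔 × Sl}
    {K' : Nk (d.e j.1) s'.bg} (hK : K' ∈ s'.nk j) :
    (∀ z ∈ univ ×ˢ K'.J, LA (d.e j.1).cyl (K'.pb x.1.2) z) ∧
      ∀ b, K'.Inf b → Dc b (K'.pb x.1.2) (σ'.β j b) := by
  obtain ⟨K, h1, k⟩ := h.en _ x.2.1 j K' hK
  have l := fun z (hz : z ∈ univ ×ˢ K.J) => la_ψ K (K.mem_src.2 hz.2) (.of_adm x.2.2.1 _)
  have e1 : K'.pb x.1.2 = K.pb x.1.2 := congrArg (fun ψ : OpenPartialHomeomorph _ _ => x.1.2.pb ψ)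
    (ng_ψ k).symm
  have e2 : K'.J = K.J := congrArg₂ Nd18.Jv (ng_p k).symm (ng_q k).symm
  rw [e1, e2]
  refine ⟨l, fun b hb => ?_⟩
  have c := (h.gd j b ⟨K', hK, hb⟩).crit
  have hb := (ng_inf k).2 hb
  obtain ⟨T, h2⟩ := far_J K hb (D := 1)
  refine ⟨c, fun η hη => ?_⟩
  obtain ⟨r, h3, h4⟩ := ((Sm10.Dg.decay K (h.site.en j) hb x.2.2.1 c.1 (x.2.2.2 j b K h1 hb) 1 η
    hη).and (eventually_ge_atTop T)).exists
  exact ⟨r, fun t ht => have m := deep_J K one_pos (h2 t (h4.trans_lt ht))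
    (dj_of h3 ⟨m, ht⟩ (fun y => l _ ⟨trivial, m⟩) fun y => .of_adm c.1 _ :)⟩

/-- one side of a degeneration -/
structure One (σ' : Cel s' nc' nr' T') (ε : d.𝓔) (a a' : Sl) (b : Bool) (l : Filter α)
    (P : α → PcS d Sl X nc) (c : α → Cfg X.M κ ν) (t : α → T')
    (φ : α → OpenPartialHomeomorph X'.M X.M) (δ : α → ℝ) (x : σ'.Pnt) : Prop where
  ok : σ'.OK
  sid : ∃ r, Tendsto r l atTop ∧ DSid σ' (ε, a') b l c t φ r x
  ev : ∀ᶠ i in l, (P i).bg.Adm (c i) ∧ t i ∈ σ'.Q ∧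
    ∃ ρ O π cc, Half (P i) (σ'.P (t i)) ε a a' b (φ i) (δ i) ρ O π cc ∅

variable {P : α → PcS d Sl X nc} {c c' : α → Cfg X.M κ ν} {t t' : α → T'} {u : α → X.M → ℂ}
  {φ φ' : α → OpenPartialHomeomorph X'.M X.M} {δ δ' : α → ℝ} {K' : Nk (d.e ε) s'.bg}

theorem One.sd {σ' : Cel s' nc' nr' T'} {l : Filter α} {x : σ'.Pnt}
    (h : One σ' ε a a' b l P c t φ δ x) (hK : K' ∈ s'.nk (ε, a')) :
    Sd l b (fun i => nJ (P i) (ε, a)) (fun i => nC (P i) (ε, a) (c i)) δ (K'.deep 1)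
      (K'.pb x.1.2) := by
  obtain ⟨r, h1, h2⟩ := h.sid
  have k := h.ev.mono fun i ⟨k1, k2, _, _, _, _, H⟩ => And.intro k1 (half_site h.ok.toOK k2 H hK)
  have dJ : ∀ {τ}, τ ∈ K'.deep 1 → τ ∈ K'.J := deep_J K' one_pos
  refine ⟨fun z hz => (fam_nk h.ok x hK).1 z ⟨trivial, dJ hz.2⟩, k.mono fun i ⟨k1, K, k2, _⟩ => ?_,
    fun τ hτ => ?_, fun R η hη => ?_⟩
  · simp only [nJ, nC, k2, Option.elim_some]
    exact ⟨oc_J K, fun z hz => la_ψ K (K.mem_src.2 hz.2) (.of_adm k1 _)⟩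
  · obtain ⟨y⟩ : Nonempty (d.e ε).Y.M := inferInstance
    obtain ⟨O, h3, h4⟩ := h2.src (K'.ψ (y, τ))
    filter_upwards [k, h4] with i ⟨_, K, k2, _, k3, _⟩ k4
    have := (k3 _).1 (k4 (mem_of_mem_nhds h3))
    rw [K'.tm_ψ _ (src K' (dJ hτ) y)] at this
    simpa only [nJ, k2, Option.elim_some] using this (dJ hτ)
  · filter_upwards [k, h2.nk (ε, a') K' hK 1 η hη, h1.eventually_ge_atTop R] with i ⟨_, K, k2, _, _, k3⟩
      k4 k5 w hw z hz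
    simp only [nJ, nC, k2, Option.elim_some] at hz ⊢
    have e : ∀ᶠ y in 𝓝 z, K.ψ (y.1, y.2 + δ i) = φ i (K'.ψ y) := by
      filter_upwards [continuous_snd.tendsto z (Nd18.isOpen_Jv.mem_nhds (dJ hz.2.1)),
        (continuous_snd.add continuous_const).tendsto z (Nd18.isOpen_Jv.mem_nhds hz.2.2.2)]
        with y y1 y2 using (k3 y.1 y.2 y1 y2).symm
    obtain ⟨k6, k7⟩ := k4 w hw z ⟨trivial, hz.2.1, fun _ => hz.2.2.1.trans_le k5⟩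
    exact ⟨fun j => (congrArg abs (Dw_congr w (e.mono fun y hy =>
      congrArg (fun p => (c i).a j p - _) hy)).self_of_nhds).trans_le (k6 j),
      (congrArg norm (Dw_congr w (e.mono fun y hy =>
        congrArg (fun p => (c i).Φ p - _) hy)).self_of_nhds).trans_le k7⟩

section two
variable {𝓕 : Fam s' nc' T'} {β β' : BCs fun i : d.𝓔 × Sl => d.e i.1}
  {R R' : T' → Cfg X'.M κ ν → Fin nr' → ℝ} {𝒰 : Ultrafilter α}
  {x : Cel.Pnt ⟨𝓕, β, R⟩} {x' : Cel.Pnt ⟨𝓕, β', R'⟩}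
  (h : One ⟨𝓕, β, R⟩ ε a a' b 𝒰 P c t φ δ x) (h' : One ⟨𝓕, β', R'⟩ ε a a' b 𝒰 P c' t' φ' δ' x')
  (hu : ∀ᶠ i in (𝒰 : Filter α), Gau X.I (u i) ∧ c' i = (P i).bg.act (u i) (c i))
include h h' hu

theorem genS (e : ∀ᶠ i in (𝒰 : Filter α), t i = t' i ∧ ∀ z, φ i z = φ' i z) : x.1.1 = x'.1.1 ∧
    ∃ v, Gau X'.I v ∧ x'.1.2 = (𝓕.P x.1.1).bg.act v x.1.2 := by
  obtain ⟨r, -, k⟩ := h.sid
  obtain ⟨r', -, k'⟩ := h'.sid
  have o : 𝓕.OK := h.ok.toOK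
  have e0 := tendsto_nhds_unique_of_eventuallyEq k.par k'.par (e.mono fun _ h => h.1)
  have a' : (𝓕.P x.1.1).bg.Adm x'.1.2 := e0 ▸ x'.2.2.1
  have pr : ∀ j, UniformContinuous fun v : Fm (Option κ) ℝ => v j := fun j =>
    (PiLp.proj (𝕜 := ℝ) 2 (fun _ => ℝ) j).uniformContinuous
  obtain ⟨v, v1, v2, -⟩ := limB s'.bg.F.toPre s'.bg.m.J 𝒰 (u := fun i z => u i (φ i z))
    (c := fun i => alC 𝓕 (t i) ((c i).pb (φ i))) (c' := fun i => alC 𝓕 (t' i) ((c' i).pb (φ' i)))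
    (x := alC 𝓕 x.1.1 x.1.2) (x' := alC 𝓕 x'.1.1 x'.1.2)
    (fun z => (k.src z).imp fun O m => ⟨m.1, by
      filter_upwards [m.2, h.ev, hu, e] with i i1 ⟨_, i2, _, _, _, _, H⟩ i3 i4 y hy
      rw [← Sm10.Dg.alC_act o i2, ← i4.1, ← funext i4.2, i3.2]
      exact ⟨⟨(Cut71.rel H.lit).sm (i1 hy) (i3.1.1 _), .of_forall fun _ => i3.1.2 _⟩,
        Sm10.Dg.alC_congr (act_φ H.lit (i1 hy) _ _)⟩⟩)
    ⟨fun j => (pr j).comp_tendstoLocallyUniformly k.al, k.Φ⟩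
    ⟨fun j => (pr j).comp_tendstoLocallyUniformly k'.al, k'.Φ⟩
    ((adm_fam o x.2.1 _).1 x.2.2.1).1.sa ((adm_fam o x'.2.1 _).1 x'.2.2.1).1.sa
  rw [← Sm10.Dg.alC_act o x.2.1, ← e0] at v2
  refine ⟨e0, v, v1, Cfg.ext (funext₂ fun j z => ?_) (congrArg Cfg.Φ v2 :)⟩
  rw [← S_al o x.2.1 ((adm_fam o x.2.1 _).1 a').2, ← S_al o x.2.1 ((adm_fam o x.2.1 _).1
    (adm_of fun y => (LA.of_adm x.2.2.1 y).act (o.ok _ x.2.1).bg (v1.1 y))).2]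
  exact Finset.sum_congr rfl fun i _ => congrArg (fun c : Cfg _ κ ν => _ * c.a i z) v2

theorem eqβ {C : ℝ} (hC : ∀ᶠ i in (𝒰 : Filter α), |δ' i - δ i| ≤ C) (hg : ∀ᶠ i in (𝒰 : Filter α),
    ∀ K ∈ (P i).nk (ε, a), ∀ τ ∈ K.J, Lg (d.e ε).Y.I fun y => u i (K.ψ (y, τ))) :
    Eq0 (β (ε, a') b) (β' (ε, a') b) := by
  obtain ⟨K', hK, i⟩ := h.sid.choose_spec.2.inf
  obtain ⟨T, k⟩ := far_J K' i (D := 1)
  refine eq0 (h.sd hK) (h'.sd hK) hC ((fam_nk h.ok x hK).2 b i) ((fam_nk h'.ok x' hK).2 b i) k ?_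
  filter_upwards [h.ev, hu, hg] with i i1 i2 i3 τ hτ
  refine ⟨fun y => nU (P i) (ε, a) (u i) (y, τ), ?_, i2.2 ▸ ((nk_act _ i1.1 i2.1).2 τ hτ).2⟩
  unfold nJ at hτ
  unfold nU
  cases e : (P i).nk (ε, a) with
  | none => exact Sw21.Lg.one
  | some K => exact i3 K e τ (by simpa only [e, Option.elim_some] using hτ)

variable (hK : K' ∈ s'.nk (ε, a')) (hp : K'.p = none) (hq : K'.q = none)
include hK hp hq

theorem cenB (n : L (β (ε, a') b) ≠ L (β' (ε, a') !b)) (n' : L (β' (ε, a') b) ≠ L (β (ε, a') !b)) :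
    ∃ r, Tendsto (fun i => δ' i - δ i) 𝒰 (𝓝 r) := by
  have i : ∀ b, K'.Inf b := fun b => by cases b <;> assumption
  have D : K'.deep 1 = univ := by simp [Nk.deep, hp, hq, Nd18.Jv]
  have k := D ▸ h.sd hK
  have k' := D ▸ h'.sd hK
  have f := fun b => (fam_nk h.ok x hK).2 b (i b)
  have f' := fun b => (fam_nk h'.ok x' hK).2 b (i b)
  have v := (h.ev.and hu).mono fun j hj τ hτ => (congrArg (fun c => L (sl (nC _ _ c) τ)) hj.2.2).trans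
    (((nk_act (ε, a) hj.1.1 hj.2.1).2 τ hτ).1 (h.ok.gd (ε, a') b ⟨K', hK, i b⟩).inv)
  obtain ⟨r, hr⟩ := tri 𝒰 (bdd (h.ok.site.en (ε, a')) k k' (f b) (f' _) n v) fun m =>
    bdd (h.ok.site.en (ε, a')) k' k (f' b) (f _) n' (v.mono fun _ e τ hτ => (e τ hτ).symm)
      (m.congr fun _ => by ring)
  exact ⟨_, (hr.const_mul (pm b)).congr fun _ => by rw [← mul_assoc, pm_sq, one_mul]⟩

theorem cenE [Subsingleton T'] (e : ∀ b, β' (ε, a') b = β (ε, a') b) {g : (d.e ε).Gen} (hg : g.OK)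
    (n : L (β (ε, a') true) < L (β (ε, a') false))
    (m : s'.mo β (ε, a') false x.1.2 = s'.mo β (ε, a') true x.1.2)
    (m' : s'.mo β' (ε, a') false x'.1.2 = s'.mo β' (ε, a') true x'.1.2) : x.1.1 = x'.1.1 ∧
    ∃ v, Gau X'.I v ∧ x'.1.2 = (𝓕.P x.1.1).bg.act v x.1.2 := by
  have i : ∀ b, K'.Inf b := fun b => by cases b <;> assumption
  have D : K'.deep 1 = univ := by simp [Nk.deep, hp, hq, Nd18.Jv]
  have n' : L (β (ε, a') b) ≠ L (β (ε, a') !b) := by cases b; exacts [n.ne', n.ne]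
  obtain ⟨r, hr⟩ := cenB h h' hu hK hp hq (by rwa [e]) (by rwa [e])
  obtain ⟨w, w1, w2⟩ := limZ 𝒰 (D ▸ h.sd hK) (D ▸ h'.sd hK) hr ((h.ev.and hu).mono fun j hj =>
    hj.2.2 ▸ (nk_act (ε, a) hj.1.1 hj.2.1).1)
  have G := fun b => h.ok.gd (ε, a') b ⟨K', hK, i b⟩
  simp only [Pz.mo, Option.mem_def.1 hK, Option.elim_some, Nk.mo, Nk.β, hp, hq, Option.getD_none,
    pm, e, if_true, Bool.false_eq_true, if_false, neg_add_cancel, sub_self, sub_zero] at m m'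
  obtain rfl := cen (h.ok.site.en (ε, a')) (adm_of fun z => (D ▸ h.sd hK).adm z ⟨trivial, trivial⟩)
    (fun b => (fam_nk h.ok x hK).2 b (i b)) G (psi_lt hg (G _) (G _) n).ne' w1 (by
      rintro _ (rfl | rfl)
      exacts [m, w2 ▸ m'])
  obtain ⟨K, -, k⟩ := h.ok.en _ x.2.1 (ε, a') K' hK
  have T : ∀ z, z ∈ K.ψ.target := fun z => by simp [K.tgt, ng_p k, ng_q k, hp, hq, Nd18.Jv]
  have q : ∀ c : Cfg X'.M κ ν, (K.pb c).pb K.ψ.symm = c := fun c =>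
    Cfg.ext (funext₂ fun j z => congrArg _ (K.ψ.right_inv (T z)))
      (funext fun z => congrArg _ (K.ψ.right_inv (T z)))
  have lt := Cut71.lit_symm (Cut71.nk_lit K)
  rw [shf_zero, Nk.pb, Nk.pb, ← ng_ψ k] at w2
  refine ⟨Subsingleton.elim _ _, fun z => w (K.ψ.symm z),
    ⟨fun z => (Cut71.rel lt).sm (T z) (w1.1 _), fun _ => w1.2 _⟩, ?_⟩
  rw [← q x'.1.2, ← q x.1.2, Nk.pb, w2]
  exact Cfg.ext (funext₂ fun j z => (act_φ lt (T z) _ _).1 j) (funext fun z => (act_φ lt (T z) _ _).2)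

omit hK hp hq in
theorem side (hE : EqvStmt κ lam ν) (e : ∀ j b, s'.Inf j b → β' j b = β j b) {g : (d.e ε).Gen}
    (hg : g.OK) (m : R x.1.1 x.1.2 = 0) (m' : R' x'.1.1 x'.1.2 = 0)
    (k : (∀ᶠ i in (𝒰 : Filter α), t i = t' i ∧ δ i = δ' i ∧ ∀ z, φ i z = φ' i z) ∨
      Cel.Cen ⟨𝓕, β, R⟩ (ε, a') ∧ Cel.Cen ⟨𝓕, β', R'⟩ (ε, a') ∧
        L (β (ε, a') true) < L (β (ε, a') false)) :
    x.1.1 = x'.1.1 ∧ (𝓕.P x.1.1).Eqv x.1.2 x'.1.2 := by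
  have o : 𝓕.OK := h.ok.toOK
  have G := fun j b i => h.ok.gd j b ((inf_iff o x.2.1 j b).1 i)
  obtain ⟨e0, v, v1, v2⟩ : x.1.1 = x'.1.1 ∧
      ∃ v, Gau X'.I v ∧ x'.1.2 = (𝓕.P x.1.1).bg.act v x.1.2 := by
    rcases k with k | ⟨⟨rfl, -, s, -, -, ⟨K', hK, hp, hq⟩, r⟩, ⟨-, -, -, -, -, -, r'⟩, n⟩
    · exact genS h h' hu (k.mono fun _ h => ⟨h.1, h.2.2⟩)
    · exact cenE h h' hu hK hp hq (fun b => e _ b ⟨K', hK, by cases b <;> assumption⟩) hg n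
        (sub_eq_zero.1 ((r _ _ 0).symm.trans (congrFun m 0)))
        (sub_eq_zero.1 ((r' _ _ 0).symm.trans (congrFun m' 0)))
  have A : (𝓕.P x.1.1).As β' x'.1.2 := e0 ▸ x'.2.2
  exact ⟨e0, v, hE _ _ _ _ _ (o.ok _ x.2.1).toOK β (fun j b i => (G j b i).crit)
    (fun j b i => (G j b i).irr) _ v x.2.2 v1 (v2 ▸ ⟨A.1, fun j b K hK i =>
      e j b ((inf_iff o x.2.1 j b).1 ⟨K, hK, i⟩) ▸ A.2 j b K hK i⟩), v2⟩

end two

section fin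
variable {XL XR : Mf 4} {nr ncL nrL ncR nrR : ℕ} {T TL TR : Type}
  [NormedAddCommGroup T] [NormedSpace ℝ T] [FiniteDimensional ℝ T]
  [NormedAddCommGroup TL] [NormedSpace ℝ TL] [FiniteDimensional ℝ TL]
  [NormedAddCommGroup TR] [NormedSpace ℝ TR] [FiniteDimensional ℝ TR]

theorem kind_cen {s : StS d Sl X} {sL : StS d Sl XL} {sR : StS d Sl XR} {σ : Cel s nc nr T}
    {σL : Cel sL ncL nrL TL} {σR : Cel sR ncR nrR TR} {p : Spl X XL XR nc ncL ncR d Sl T TL TR}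
    (h : p.Kind σ σL σR) : (p.o = some false ∨ nr = 1 → σL.Cen (p.ε, p.aL)) ∧
      (p.o = some true → σR.Cen (p.ε, p.aR)) := by
  rcases h with ⟨a, -, b, -⟩ | ⟨a, b, -, c, -⟩ | ⟨a, -, -, c, -⟩ | ⟨-, -, b, c, -⟩
  exacts [by simp [a, b], ⟨by simp [a, b], fun _ => c⟩, ⟨fun _ => c, by simp [a]⟩,
    ⟨fun _ => b, fun _ => c⟩]

/-- **DEG-UNIQ** -/
theorem uniq (hE : EqvStmt κ lam ν) : UniqP d Sl X XL XR nc nr ncL nrL ncR nrR T TL TR := by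
  rintro s sL sR σ ⟨FL, bL, rL⟩ ⟨FR, bR, rR⟩ p V hV ⟨g, hg⟩ hN βL RL βR RR h1 h2 v1 v2 ι 𝒰 y x z x' z'
    q sx sz sx' sz' ⟨y1, tL, tR, δ, e1, l1, L1, R1⟩ ⟨y2, tL', tR', δ', e2, l2, L2, R2⟩
  have o := h1.ok.toOK
  have oL : FL.OK := h1.okL.toOK
  have oR : FR.OK := h1.okR.toOK
  obtain ⟨u, hu⟩ := Eventually.choice (r := fun i u => (y2 i).1.1 = (y1 i).1.1 ∧
      (σ.P (y1 i).1.1).Al u ∧ (y2 i).1.2 = (σ.P (y1 i).1.1).bg.act u (y1 i).1.2)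
    ((e1.and e2).mono fun i ⟨⟨⟨a, b⟩, _⟩, ⟨a', b'⟩, _⟩ =>
      have k := eqv_equiv (o.ok _ (y i).2.1).toOK
      let ⟨u, k⟩ := k.trans (k.symm b) b'
      ⟨u, a'.symm.trans a, a ▸ k⟩)
  have hu' := hu.mono fun i k => And.intro k.2.1.1 k.2.2
  have c1 := e1.mono fun i k => (⟨k.2.2.2.QL, k.2.2.2.QR, k.2.2.1 ▸ k.2.2.2.L, k.2.2.1 ▸ k.2.2.2.R⟩ :
    _ ∧ _ ∧ Half (σ.P (y1 i).1.1) _ _ _ _ _ _ _ _ _ _ _ _ ∧
      Half (σ.P (y1 i).1.1) _ _ _ _ _ _ _ _ _ _ _ _)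
  have c2 := (e2.and hu).mono fun i k => (⟨k.1.2.2.2.QL, k.1.2.2.2.QR,
    k.2.1 ▸ k.1.2.2.1 ▸ k.1.2.2.2.L, k.2.1 ▸ k.1.2.2.1 ▸ k.1.2.2.2.R⟩ :
    _ ∧ _ ∧ Half (σ.P (y1 i).1.1) _ _ _ _ _ _ _ _ _ _ _ _ ∧
      Half (σ.P (y1 i).1.1) _ _ _ _ _ _ _ _ _ _ _ _)
  have r : ∀ {f : ι → ℝ}, Tendsto f 𝒰 atTop → Tendsto (fun i => f i / 2 + 1 / 2) 𝒰 atTop := fun k =>
    tendsto_atTop_add_const_right _ _ (k.atTop_div_const two_pos)
  have a2 := hu.mono fun i k => (k.1 ▸ (y2 i).2.2.1 : (σ.P (y1 i).1.1).bg.Adm (y2 i).1.2)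
  have A1 := One.mk h1.okL ⟨_, r l1, L1⟩
    (c1.mono fun i k => ⟨(y1 i).2.2.1, k.1, _, _, _, _, k.2.2.1⟩)
  have B1 := One.mk h1.okR ⟨_, r l1, R1⟩
    (c1.mono fun i k => ⟨(y1 i).2.2.1, k.2.1, _, _, _, _, k.2.2.2⟩)
  have A2 := One.mk h2.okL ⟨_, r l2, L2⟩
    ((c2.and a2).mono fun i k => ⟨k.2, k.1.1, _, _, _, _, k.1.2.2.1⟩)
  have B2 := One.mk h2.okR ⟨_, r l2, R2⟩
    ((c2.and a2).mono fun i k => ⟨k.2, k.1.2.1, _, _, _, _, k.1.2.2.2⟩)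
  obtain ⟨i₀, k1, k2, k3, k4⟩ := c1.exists
  have ii := fun j b => inf_iff o (y1 i₀).2.1 j b
  have iL := fun k => (ii _ _).1 (half_inf oL k1 k3 k)
  have iR := fun k => (ii _ _).1 (half_inf oR k2 k4 k)
  have pe := (e1.and (e2.and hu)).mono fun i k => k.1.2.2.1.symm.trans (k.2.2.1.symm.trans k.2.1.2.2.1)
  have CL := fun k : p.o = some false ∨ nr = 1 =>
    have c := (kind_cen h1.kind).1 k
    have i := c.2.2.2.2.2.1.elim fun K h => iL ⟨K, h.1, h.2.1⟩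
    have k' : p.o ≠ some true ∨ nr = 1 := k.imp_left fun k => by simp [k]
    And.intro i (And.intro c (And.intro ((kind_cen h2.kind).1 k) (And.intro
      ((h1.lvL i k').trans_eq (congrArg L (h1.βL i).symm))
      ((h2.lvL i k').trans_eq (congrArg L (h2.βL i).symm)))))
  have CR := fun k : p.o = some true =>
    have c := (kind_cen h1.kind).2 k
    have i := c.2.2.2.2.2.1.elim fun K h => iR ⟨K, h.1, h.2.2⟩
    And.intro i (And.intro c (And.intro ((kind_cen h2.kind).2 k)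
      (((congrArg L (h1.βR i)).trans_lt (h1.lvR k)).trans_eq (congrArg L h1.mid))))
  obtain ⟨gL, gR⟩ : ((∀ᶠ i in (𝒰 : Filter ι), tL i = tL' i ∧ (δ i).1 = (δ' i).1 ∧
      ∀ z, p.φL (δ i) z = p.φL (δ' i) z) ∨ p.o = some false ∨ nr = 1) ∧
      ((∀ᶠ i in (𝒰 : Filter ι), tR i = tR' i ∧ (δ i).2 = (δ' i).2 ∧
      ∀ z, p.φR (δ i) z = p.φR (δ' i) z) ∨ p.o = some true) := by
    rcases h1.kind with ⟨-, -, -, -, -, a, b, -⟩ | ⟨a, -, -, -, b, c, f, -⟩ |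
      ⟨a, -, -, -, b, c, f, -⟩ | ⟨a, b, -⟩
    · have := (pe.and (e1.and e2)).mono fun i k => by
        obtain ⟨a1, a2, a3⟩ := Prod.ext_iff.1 (a.1 k.1) |>.imp_right Prod.ext_iff.1
        exact And.intro a1 (And.intro a2 ((b _).unique ⟨k.2.1.2.2.2.Δ, a3⟩ ⟨k.2.2.2.2.2.Δ, rfl⟩))
      exact ⟨.inl (this.mono fun i k => ⟨k.1, by rw [k.2.2], by simp [k.2.2]⟩),
        .inl (this.mono fun i k => ⟨k.2.1, by rw [k.2.2], by simp [k.2.2]⟩)⟩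
    · refine ⟨.inl ?_, .inr a⟩
      filter_upwards [pe, e1, e2, c1, c2] with i a1 a2 a3 a4 a5
      have b1 : tL i = tL' i := f.1 ((c _ _ _).symm.trans (a1.trans (c _ _ _)))
      have b2 : (δ i).1 = (δ' i).1 := (b.le a2.2.2.2.Δ).trans (b.le a3.2.2.2.Δ).symm
      exact ⟨b1, b2, half_eq oL a4.1 a4.2.2.1 (b1 ▸ b2 ▸ a5.2.2.1)
        ((inf_iff o (y1 i).2.1 _ _).2 (CR a).1)⟩
    · refine ⟨.inr (.inl a), .inl ?_⟩
      filter_upwards [pe, e1, e2, c1, c2] with i a1 a2 a3 a4 a5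
      have b1 : tR i = tR' i := f.1 ((c _ _ _).symm.trans (a1.trans (c _ _ _)))
      have b2 : (δ i).2 = (δ' i).2 := (b.le a2.2.2.2.Δ).trans (b.le a3.2.2.2.Δ).symm
      exact ⟨b1, b2, half_eq oR a4.2.1 a4.2.2.2 (b1 ▸ b2 ▸ a5.2.2.2)
        ((inf_iff o (y1 i).2.1 _ _).2 (CL (.inl a)).1)⟩
    · exact ⟨.inr (.inr b.1), .inr a⟩
  obtain ⟨C, hC⟩ : ∃ C, ∀ᶠ i in (𝒰 : Filter ι), |(δ' i).1 - (δ i).1| ≤ C := by
    rcases gL with k | k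
    · exact ⟨0, k.mono fun i k => by simp [k.2.1]⟩
    obtain ⟨i, ⟨-, -, -, -, -, ⟨K, a, b, c⟩, -⟩, -, f, f'⟩ := CL k
    have e : βL (p.ε, p.aL) false = bL (p.ε, p.aL) false := (h2.βL i).trans (h1.βL i).symm
    obtain ⟨r, hr⟩ := cenB A1 A2 hu' a b c (f.trans_eq (congrArg L e.symm)).ne
      (f'.trans_eq (congrArg L e)).ne
    exact ⟨_, (hr.abs.eventually_le_const (lt_add_one _))⟩
  have eβ : bL (p.ε, p.aL) true = βL (p.ε, p.aL) true := by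
    refine hV.inj _ v1 _ v2 (eqβ A1 A2 hu' hC (hu.mono fun i k K hK τ hτ => ?_))
    have f := fun b (a : s.Inf (p.ε, p.a) b) =>
      let ⟨K', a1, a2⟩ := (inf_iff o (y1 i).2.1 _ _).2 a
      have a3 : K.Inf b := Option.mem_unique a1 hK ▸ a2
      lg_end K (o.site.en (p.ε, p.a)) a3 k.2.1.1 (k.2.1.2 _ b K hK a3) hτ
    rcases e : p.o with _ | _ | _
    exacts [hN e _ (y1 i).2.1 K hK _ k.2.1 τ hτ, f _ (CL (.inl e)).1, f _ (CR e).1]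
  have sL := side A1 A2 hu' hE (fun j b i => by
    rcases half_ends oL k1 k3 j i with rfl | ⟨j, a, rfl, f⟩
    · cases b
      exacts [(h2.βL (iL i)).trans (h1.βL (iL i)).symm, eβ.symm]
    · have f1 := h1.βo j b a.1 ((ii _ _).1 f)
      have f2 := h2.βo j b a.1 ((ii _ _).1 f)
      rw [a.2, if_neg Bool.false_ne_true] at f1 f2
      exact f2.symm.trans f1) hg sx.2 sx'.2
    (gL.imp_right fun k => ⟨(CL k).2.1, (CL k).2.2.1, (CL k).2.2.2.1⟩)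
  have sR := side B1 B2 hu' hE (fun j b i => by
    rcases half_ends oR k2 k4 j i with rfl | ⟨j, a, rfl, f⟩
    · cases b
      exacts [h2.mid.symm.trans (eβ.symm.trans h1.mid), (h2.βR (iR i)).trans (h1.βR (iR i)).symm]
    · have f1 := h1.βo j b a.1 ((ii _ _).1 f)
      have f2 := h2.βo j b a.1 ((ii _ _).1 f)
      rw [a.2, if_pos rfl] at f1 f2
      exact f2.symm.trans f1) hg sz.2 sz'.2 (gR.imp_right fun k => (CR k).2)
  exact ⟨eβ, sL.1, sR.1, sL.2, sR.2⟩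

end fin

end Crest.Agent.X212.Unq6
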