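import Crest.Agent.X212.Sm10.Dg1
import Crest.Agent.X212.Cut71.Hf
import Crest.Agent.X212.Sw21.Tool
import Crest.Agent.X212.Win45.Gap

/-!
# Row 212, DEG-UNIQ (helper6), part 1: limits of gauges, shifted sequences on the cylinder, centring
-/

set_option autoImplicit false
set_option linter.unusedSectionVars false
noncomputable section
open scoped Manifold ContDiff Topology InnerProductSpace
open MeasureTheory Set Function Filter

namespace Crest.Agent.X212.Unq6
open An Sw Sob92 Cyf70 Sw.En3 Pb50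
open Wz78 (SA)
open M (Mf pm)
open Sm10 (Zs)
open Sm10.Dg (ac)
open Sw21 (Lg)
open Cut71 (shf At pm_sq pm_not)
open Win39 (jt)
open Real (smoothTransition)

variable {κ lam ν : Type} [Fintype κ] [Fintype lam] [Fintype ν] [DecidableEq ν] {α : Type}

section gen
variable {E : Type} [NormedAddCommGroup E] [NormedSpace ℝ E] [FiniteDimensional ℝ E]
  [MeasurableSpace E] [BorelSpace E]
  {HM : Type} [TopologicalSpace HM] {I : ModelWithCorners ℝ E HM} [I.Boundaryless]
  {M : Type} [TopologicalSpace M] [ChartedSpace HM M] [IsManifold I ∞ M]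
  [MeasurableSpace M] [T2Space M] [BorelSpace M]

/-- locally uniform convergence -/
def CV (l : Filter α) (c : α → Cfg M κ ν) (x : Cfg M κ ν) : Prop :=
  (∀ k, TendstoLocallyUniformly (fun i => (c i).a k) (x.a k) l) ∧
    TendstoLocallyUniformly (fun i => (c i).Φ) x.Φ l

/-- limits of gauge equivalent sequences are equivalent -/
theorem limB (F : Pre I M (Option κ)) (J : En ν) (𝒰 : Ultrafilter α) {u : α → M → ℂ}
    {c c' : α → Cfg M κ ν} {x x' : Cfg M κ ν}
    (hu : ∀ z, ∃ O ∈ 𝓝 z, ∀ᶠ i in (𝒰 : Filter α), ∀ y ∈ O, LG I (u i) y ∧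
      At id (c' i) (ac F J (u i) (c i)) y)
    (h : CV 𝒰 c x) (h' : CV 𝒰 c' x') (s : ∀ k, Sm I (x.a k)) (s' : ∀ k, Sm I (x'.a k)) :
    ∃ v, Gau I v ∧ x' = ac F J v x ∧ TendstoLocallyUniformly u v 𝒰 := by
  obtain ⟨v, v1, v2, v3, v4⟩ := Sw21.lim_loc F 𝒰 (u := u) (δ := fun k => x.a k - x'.a k)
    (fun z => (hu z).imp fun O k => ⟨k.1, k.2.mono fun i hi y hy =>
      ⟨(hi y hy).1.sm.md, (hi y hy).1.one.self_of_nhds⟩⟩) (fun k => (s k).sub (s' k)) fun k =>
    tendstoLocallyUniformly_iff_filter.2 fun z => by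
      obtain ⟨O, h1, h2⟩ := hu z
      refine (tendstoLocallyUniformly_iff_filter.1 ((h.1 k).sub (h'.1 k)) z).congr
        ((h2.prod_mk h1).mono fun p hp => ?_)
      exact (congrArg (_ - ·) ((hp.1 _ hp.2).2.1 k)).trans (sub_sub_cancel _ _)
  refine ⟨v, ⟨v1, v2⟩, Cfg.ext (funext₂ fun k y => ?_) (funext fun y => ?_), v4⟩
  · exact ((congrArg (_ - ·) (v3 k y)).trans (sub_sub_cancel _ _)).symm
  · obtain ⟨O, h1, h2⟩ := hu y
    have p : ∀ {N : Type} [UniformSpace N] {f : α → M → N} {g : M → N},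
        TendstoLocallyUniformly f g 𝒰 → Tendsto (fun i => f i y) 𝒰 (𝓝 (g y)) := fun k =>
      (tendstoLocallyUniformlyOn_univ.2 k).tendsto_at trivial
    exact tendsto_nhds_unique_of_eventuallyEq (p h'.2) (((cB J).continuous₂.tendsto (v y, x.Φ y)).comp
      ((p v4).prodMk_nhds (p h.2))) (h2.mono fun i hi => (hi y (mem_of_mem_nhds h1)).2.2)

end gen

theorem act_φ {X X' : Mf 4} {nc nc' : ℕ} {b : Bg X.I X.M κ lam ν nc} {b' : Bg X'.I X'.M κ lam ν nc'}
    {φ : OpenPartialHomeomorph X.M X'.M} (h : b.Lit b' φ) {x : X.M} (hx : x ∈ φ.source)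
    (u : X'.M → ℂ) (c : Cfg X'.M κ ν) :
    At id ((b'.act u c).pb φ) (b.act (fun y => u (φ y)) (c.pb φ)) x :=
  ⟨fun k => congrArg (fun z => c.a k (φ x) - (star (u (φ x)) * z).im)
    ((Cut71.rel h).D hx k (.of_forall fun _ => rfl)).symm,
    congrArg (fun J => cs J (u (φ x)) (c.Φ (φ x))) h.J⟩

theorem tri (𝒰 : Ultrafilter α) {f : α → ℝ} (h1 : ¬Tendsto f 𝒰 atTop)
    (h2 : ¬Tendsto (fun i => -f i) 𝒰 atTop) : ∃ d, Tendsto f 𝒰 (𝓝 d) := by
  simp only [tendsto_atTop, not_forall, ← Ultrafilter.eventually_not, not_le] at h1 h2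
  obtain ⟨a, h1⟩ := h1
  obtain ⟨b, h2⟩ := h2
  obtain ⟨d, -, h⟩ := (isCompact_Icc (a := -b) (b := a)).ultrafilter_le_nhds (𝒰.map f)
    (le_principal_iff.2 ((h1.and h2).mono fun i hi => ⟨by linarith [hi.2], hi.1.le⟩))
  exact ⟨d, h⟩

/-! ### centring -/

theorem cen_real {f : ℝ → ℝ} {A B d : ℝ} (hf : Continuous f) (h1 : ∀ᶠ t in atBot, f t = A)
    (h2 : ∀ᶠ t in atTop, f t = B) (hAB : A ≠ B)
    (e : ∀ s ∈ ({0, d} : Set ℝ), ∫ t, (1 - smoothTransition t) * (-1 * (f (t + s) - A)) =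
      ∫ t, smoothTransition t * (1 * (f (t + s) - B))) : d = 0 := by
  have cs : Continuous smoothTransition := smoothTransition.continuous
  have z : ∀ᶠ t in atBot, smoothTransition t = 0 :=
    (eventually_le_atBot 0).mono fun _ => smoothTransition.zero_of_nonpos
  have o : ∀ᶠ t in atTop, smoothTransition t = 1 :=
    (eventually_ge_atTop 1).mono fun _ => smoothTransition.one_of_one_le
  have hc : ∀ {g : ℝ → ℝ}, (∀ᶠ t in atBot, g t = 0) → (∀ᶠ t in atTop, g t = 0) →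
      HasCompactSupport g := fun a b => by
    rw [hasCompactSupport_iff_eventuallyEq, coclosedCompact_eq_cocompact, cocompact_eq_atBot_atTop]
    exact eventually_sup.2 ⟨a, b⟩
  have sb : ∀ s : ℝ, Tendsto (· + s) atBot atBot := fun s => tendsto_atBot_add_const_right _ s tendsto_id
  have st : ∀ s : ℝ, Tendsto (· + s) atTop atTop := fun s => tendsto_atTop_add_const_right _ s tendsto_id
  let g : ℝ → ℝ → ℝ := fun s t => A + (B - A) * smoothTransition (t + -s) - f t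
  have ig : ∀ s, Integrable (g s) := fun s => Continuous.integrable_of_hasCompactSupport
    (by fun_prop)
    (hc ((h1.and ((sb (-s)).eventually z)).mono fun t ⟨a, b⟩ => by simp only [g, a, b]; ring)
      ((h2.and ((st (-s)).eventually o)).mono fun t ⟨a, b⟩ => by simp only [g, a, b]; ring))
  have k : ∀ s ∈ ({0, d} : Set ℝ), ∫ t, g s t = 0 := fun s hs => by
    rw [← integral_add_right_eq_self _ s, ← sub_eq_zero.2 (e s hs), ← integral_sub]
    · exact congrArg _ (funext fun t => by simp only [g, add_neg_cancel_right]; ring)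
    · exact Continuous.integrable_of_hasCompactSupport (by fun_prop)
        (hc (((sb s).eventually h1).mono fun t ht => by simp [ht]) (o.mono fun t ht => by simp [ht]))
    · exact Continuous.integrable_of_hasCompactSupport (by fun_prop)
        (hc (z.mono fun t ht => by simp [ht]) (((st s).eventually h2).mono fun t ht => by simp [ht]))
  have k1 : ∀ s s' : ℝ, s < s' → ∫ t, g s t = 0 → ∫ t, g s' t ≠ 0 := fun s s' hs a b => by
    have p := Continuous.integral_pos_of_hasCompactSupport_nonneg_nonzero (μ := volume) (x := s')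
      (f := fun t => smoothTransition (t + -s) - smoothTransition (t + -s')) (by fun_prop)
      (hc ((((sb _).eventually z).and ((sb _).eventually z)).mono fun t ht => by rw [ht.1, ht.2, sub_self])
        ((((st _).eventually o).and ((st _).eventually o)).mono fun t ht => by rw [ht.1, ht.2, sub_self]))
      (fun t => sub_nonneg.2 (smoothTransition.monotone (by linarith))) (by
        simpa using (smoothTransition.pos_of_pos (x := s' + -s) (by linarith)).ne')
    have q := integral_sub (ig s) (ig s')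
    rw [a, b, sub_self, show (fun t => g s t - g s' t) = fun t => (B - A) *
      (smoothTransition (t + -s) - smoothTransition (t + -s')) from funext fun t => by
        simp only [g]; ring, integral_const_mul] at q
    exact mul_ne_zero (sub_ne_zero.2 hAB.symm) p.ne' q
  rcases lt_trichotomy d 0 with h | h | h
  exacts [(k1 _ _ h (k d (by simp)) (k 0 (by simp))).elim, h,
    (k1 _ _ h (k 0 (by simp)) (k d (by simp))).elim]

variable {e : En3 κ lam ν} {l : Filter α} {b : Bool} {J : α → Set ℝ} {c c' : α → e.ZC}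
  {u : α → e.Y.M × ℝ → ℂ} {δ δ' : α → ℝ} {J' : Set ℝ} {x x' : e.ZC} {v v' : e.YC}

/-- distance of jets -/
def dj (v v' : e.YC) (η : ℝ) : Prop := ∀ y, ‖jt v y - jt v' y‖ ≤ η

theorem dj_of {T : Set ℝ} {t η : ℝ} (h : Cl x x' T 1 η) (ht : t ∈ T) (a : ∀ y, LA e.cyl x (y, t))
    (a' : ∀ y, LA e.cyl x' (y, t)) : dj (sl x t) (sl x' t) η := fun y => by
  have h0 := Win39.Cl.pt h (x := (y, t)) ⟨trivial, ht⟩
  have h1 := fun i => h [some i] le_rfl (y, t) ⟨trivial, ht⟩
  have hη := (norm_nonneg _).trans h0.2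
  have D : ∀ {N : Type} [NormedAddCommGroup N] [NormedSpace ℝ N] {f g : e.Y.M × ℝ → N},
      (∀ y, SA (IC e.Y.I) f (y, t)) → (∀ y, SA (IC e.Y.I) g (y, t)) → ∀ i,
      e.D.F.D i (fun y => f (y, t)) y - e.D.F.D i (fun y => g (y, t)) y =
        e.D.Z.D (some i) (f - g) (y, t) := fun f g i =>
    ((D_some_at e.D.F.toPre (SA.md ((f y).sub (g y))) i).trans
      (dv_sub (SA.md (sm_sl f y)) (SA.md (sm_sl g y)))).symm
  refine max_le ((pi_norm_le_iff_of_nonneg hη).2 fun k => h0.1 (some k)) (max_le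
    ((pi_norm_le_iff_of_nonneg hη).2 fun i => (pi_norm_le_iff_of_nonneg hη).2 fun k => ?_)
    (max_le h0.2 ((pi_norm_le_iff_of_nonneg hη).2 fun i => ?_)))
  · exact (congrArg norm (D (fun y => (a y).sa _) (fun y => (a' y).sa _) i)).trans_le
      ((h1 i).1 (some k))
  · exact (congrArg norm (D (fun y => (a y).sΦ) (fun y => (a' y).sΦ) i)).trans_le (h1 i).2

/-- convergence at the end `b` -/
def Dc (b : Bool) (x : e.ZC) (v : e.YC) : Prop :=
  Crit v ∧ ∀ η > 0, ∃ T, ∀ t, T < pm b * t → dj (sl x t) v η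

/-- the shifted configurations converge to `x` on `J'` -/
structure Sd (l : Filter α) (b : Bool) (J : α → Set ℝ) (c : α → e.ZC) (δ : α → ℝ) (J' : Set ℝ)
    (x : e.ZC) : Prop where
  adm : ∀ z ∈ univ ×ˢ J', LA e.cyl x z
  ad : ∀ᶠ i in l, (J i).OrdConnected ∧ ∀ z ∈ univ ×ˢ J i, LA e.cyl (c i) z
  mem : ∀ τ ∈ J', ∀ᶠ i in l, τ + δ i ∈ J i
  cl : ∀ R, ∀ η > 0, ∀ᶠ i in l,
    Cl (shf (δ i) (c i)) x {τ ∈ J' | pm b * τ < R ∧ τ + δ i ∈ J i} 1 η

theorem Sd.near (h : Sd l b J c δ J' x) {b' : Bool} (hd : Dc b' x v) {η : ℝ} (hη : 0 < η) :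
    ∃ T, ∀ R, ∀ᶠ i in l, ∀ s ∈ J i, s - δ i ∈ J' → pm b * (s - δ i) < R → T < pm b' * (s - δ i) →
      e.cyl.Adm (fz (sl (c i) s)) ∧ dj (sl (c i) s) v η := by
  obtain ⟨T, hT⟩ := hd.2 _ (half_pos hη)
  refine ⟨T, fun R => ((h.cl R _ (half_pos hη)).and h.ad).mono fun i hi s h1 h2 h3 h4 =>
    ⟨sl_adm fun y => hi.2.2 _ ⟨trivial, h1⟩, fun y => ?_⟩⟩
  have h5 : s - δ i + δ i = s := sub_add_cancel _ _
  have := dj_of hi.1 (t := s - δ i) ⟨h2, h3, h5.symm ▸ h1⟩ (fun y => Cut71.la_sh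
    (.of_forall (At.pb _ _)) (hi.2.2 _ ⟨trivial, h5.symm ▸ h1⟩)) (fun y => h.adm _ ⟨trivial, h2⟩) y
  rw [Cut71.sl_shf, h5] at this
  linarith [norm_sub_le_norm_sub_add_norm_sub (jt (sl (c i) s) y) (jt (sl x (s - δ i)) y) (jt v y),
    hT _ h4 y]

/-- the shifts do not diverge -/
theorem bdd [l.NeBot] (he : e.OK) (h : Sd l b J c δ univ x) (h' : Sd l b J c' δ' univ x')
    (hd : Dc b x v) (hd' : Dc (!b) x' v') (hL : L v ≠ L v')
    (hc : ∀ᶠ i in l, ∀ s ∈ J i, L (sl (c' i) s) = L (sl (c i) s)) :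
    ¬Tendsto (fun i => pm b * (δ' i - δ i)) l atTop := fun k => by
  have p : 0 < |L v - L v'| / 3 := by have := abs_pos.2 (sub_ne_zero.2 hL); positivity
  obtain ⟨η, h1, h2⟩ := Win39.cont1 he hd.1.1 p
  obtain ⟨η', h3, h4⟩ := Win39.cont1 he hd'.1.1 p
  obtain ⟨T, h5⟩ := h.near hd h1
  obtain ⟨T', h6⟩ := h'.near hd' h3
  have q := pm_sq b
  obtain ⟨i, a1, a2, a3, a4, a5⟩ := ((h5 (T + 2)).and ((h6 (-T')).and ((h.mem (pm b * (T + 1))
    trivial).and (hc.and (k.eventually_gt_atTop (T + 1 + T')))))).exists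
  have e1 : pm b * (pm b * (T + 1) + δ i - δ i) = T + 1 := by linear_combination (T + 1) * q
  have e2 : pm b * (pm b * (T + 1) + δ i - δ' i) < -T' := by linarith [mul_assoc (pm b) (pm b) (T + 1), congrArg (· * (T + 1)) q]
  obtain ⟨b1, b2⟩ := a1 _ a3 trivial (by linarith) (by linarith)
  obtain ⟨b3, b4⟩ := a2 _ a3 trivial e2 (by rw [pm_not]; linarith)
  have b5 := (h2 _ b1 b2).1
  have b6 := (h4 _ b3 b4).1
  rw [a4 _ a3, abs_sub_comm] at b6
  have := abs_sub_le (L v') (L (sl (c i) (pm b * (T + 1) + δ i))) (L v)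
  rw [abs_sub_comm (L v')] at this
  linarith

theorem cv_fz {w : α → e.YC} (h : ∀ η > 0, ∀ᶠ i in l, dj (w i) v η) :
    CV l (fun i => fz (w i)) (fz v) := by
  refine ⟨fun k => TendstoUniformly.tendstoLocallyUniformly (Metric.tendstoUniformly_iff.2
    fun ε hε => (h _ (half_pos hε)).mono fun i hi z => ?_), TendstoUniformly.tendstoLocallyUniformly
    (Metric.tendstoUniformly_iff.2 fun ε hε => (h _ (half_pos hε)).mono fun i hi z => ?_)⟩
  · cases k with
    | none => exact (dist_self _).trans_lt hε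
    | some k => exact (dist_comm _ _).trans_lt (((norm_le_pi_norm _ k).trans
        ((norm_fst_le _).trans (hi z.1))).trans_lt (half_lt_self hε))
  · exact ((dist_comm _ _).trans (dist_eq_norm _ _)).trans_lt (((norm_fst_le _).trans
      ((norm_snd_le _).trans ((norm_snd_le _).trans (hi z.1)))).trans_lt (half_lt_self hε))

/-- the limits at the end differ by a null-homotopic gauge transformation -/
theorem eq0 [l.NeBot] (h : Sd l b J c δ J' x) (h' : Sd l b J c' δ' J' x') {C T₀ : ℝ}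
    (hC : ∀ᶠ i in l, |δ' i - δ i| ≤ C) (hd : Dc b x v) (hd' : Dc b x' v')
    (hJ : ∀ t, T₀ < pm b * t → t ∈ J') (hu : ∀ᶠ i in l, ∀ s ∈ J i, ∃ g, Lg e.Y.I g ∧
      fz (sl (c' i) s) = e.cyl.act (fun z => g z.1) (fz (sl (c i) s))) : Eq0 v v' := by
  have k : ∀ η : ℝ, ∃ (g : e.Y.M → ℂ) (w w' : e.YC), Lg e.Y.I g ∧
      fz w' = e.cyl.act (fun z => g z.1) (fz w) ∧ (0 < η → dj w v η ∧ dj w' v' η) := fun η => by
    by_cases hη : 0 < η
    swap
    · exact ⟨_, v, v, Sw21.Lg.one, (act_one _).symm, fun k => (hη k).elim⟩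
    obtain ⟨T, h1⟩ := h.near hd hη
    obtain ⟨T', h2⟩ := h'.near hd' hη
    obtain ⟨R, r⟩ : ∃ R, R = |T| + |T'| + |T₀| + |C| + 1 := ⟨_, rfl⟩
    have := le_abs_self T; have := le_abs_self T'; have := le_abs_self T₀; have := le_abs_self C
    have := abs_nonneg T; have := abs_nonneg T'; have := abs_nonneg T₀; have := abs_nonneg C
    have q : pm b * (pm b * R) = R := by rw [← mul_assoc, pm_sq, one_mul]
    obtain ⟨i, a1, a2, a3, a4, a5⟩ := ((h1 (R + 1)).and ((h2 (R + C + 1)).and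
      ((h.mem (pm b * R) (hJ _ (by linarith))).and (hu.and hC)))).exists
    obtain ⟨g, g1, g2⟩ := a4 _ a3
    have e1 : pm b * (pm b * R + δ i - δ i) = R := by rw [add_sub_cancel_right, q]
    obtain ⟨e2, e3⟩ := abs_le.1 ((Cut71.abs_pm b _).trans_le a5)
    have e4 : pm b * (pm b * R + δ i - δ' i) = R - pm b * (δ' i - δ i) := by linarith
    exact ⟨g, _, _, g1, g2, fun _ => ⟨(a1 _ a3 (hJ _ (by linarith)) (by linarith) (by linarith)).2,
      (a2 _ a3 (hJ _ (by linarith)) (by linarith) (by linarith)).2⟩⟩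
  choose g w w' k1 k2 k3 using k
  let 𝒰 := Ultrafilter.of (𝓝[>] (0 : ℝ))
  have ev : ∀ η > 0, ∀ᶠ r in (𝒰 : Filter ℝ), dj (w r) v η ∧ dj (w' r) v' η := fun η hη =>
    mem_of_superset (Ultrafilter.of_le _ (Ioo_mem_nhdsGT hη)) fun r hr =>
      ⟨fun y => ((k3 r hr.1).1 y).trans hr.2.le, fun y => ((k3 r hr.1).2 y).trans hr.2.le⟩
  obtain ⟨U, u1, u2, u3⟩ := limB e.D.Z.toPre e.m.J 𝒰 (u := fun r z => g r z.1)
    (fun z => ⟨univ, univ_mem, .of_forall fun r y _ => ⟨.of_gau (gau_fst ⟨(k1 r).sm, (k1 r).norm⟩) y,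
      by rw [k2]; exact ⟨fun _ => rfl, rfl⟩⟩⟩)
    (cv_fz fun η hη => (ev η hη).mono fun _ h => h.1) (cv_fz fun η hη => (ev η hη).mono fun _ h => h.2)
    hd.1.1.sa hd'.1.1.sa
  obtain ⟨χ, c1, c2⟩ := Sw21.Lg.lim (U := fun y => U (y, 0)) (.of_forall k1) (sm_sl fun y => u1.1 _)
    (fun y => u1.2 _) (tendstoLocallyUniformly_iff_tendstoUniformly_of_compactSpace.1
      (u3.comp (fun y => (y, (0 : ℝ))) (by fun_prop)))
  refine ⟨χ, c1, ?_⟩
  have := sl_act (s := 0) (fz v) fun y => u1.1 (y, 0)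
  simp only [c2] at this
  exact (congrArg (fun c => fz (sl c 0)) u2).trans this

theorem Sd.ev (h : Sd l b J c δ univ x) {d : ℝ} (hd : Tendsto (fun i => δ' i - δ i) l (𝓝 d))
    (t : ℝ) : ∀ᶠ i in l, |δ' i - δ i - d| < 1 ∧ ∀ s ∈ Ioo (t - 1) (t + 1), s + δ' i ∈ J i := by
  filter_upwards [h.mem (t + d - 2) trivial, h.mem (t + d + 2) trivial, h.ad,
    Metric.tendsto_nhds.1 hd 1 one_pos] with i h1 h2 h3 h4
  refine ⟨h4, fun s hs => h3.1.out h1 h2 ?_⟩
  obtain ⟨h5, h6⟩ := abs_lt.1 h4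
  exact ⟨by linarith [hs.1], by linarith [hs.2]⟩

theorem Sd.cv (h : Sd l b J c δ univ x) {d : ℝ} (hd : Tendsto (fun i => δ' i - δ i) l (𝓝 d)) :
    CV l (fun i => shf (δ' i) (c i)) (shf d x) := by
  have a : e.cyl.Adm x := adm_of fun z => h.adm z ⟨trivial, trivial⟩
  have k : ∀ {N : Type} [NormedAddCommGroup N] {f : α → e.Y.M × ℝ → N} {g : e.Y.M × ℝ → N},
      Continuous g → (∀ R, ∀ η > 0, ∀ᶠ i in l, ∀ z : e.Y.M × ℝ, pm b * z.2 < R → z.2 + δ i ∈ J i →
        ‖f i (z.1, z.2 + δ i) - g z‖ ≤ η) → TendstoLocallyUniformly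
        (fun i (z : e.Y.M × ℝ) => f i (z.1, z.2 + δ' i)) (fun z => g (z.1, z.2 + d)) l := by
    intro N _ f g hg hf
    refine tendstoLocallyUniformly_iff_filter.2 fun z => Metric.tendstoUniformlyOnFilter_iff.2
      fun ε hε => ?_
    have t : ∀ {r : α × e.Y.M × ℝ → ℝ}, Tendsto r (l ×ˢ 𝓝 z) (𝓝 d) → Tendsto
        (fun p => g (p.2.1, p.2.2 + r p)) (l ×ˢ 𝓝 z) (𝓝 (g (z.1, z.2 + d))) := fun hr =>
      (hg.tendsto _).comp (((continuous_fst.tendsto z).comp tendsto_snd).prodMk_nhds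
        (((continuous_snd.tendsto z).comp tendsto_snd).add hr))
    filter_upwards [(t tendsto_const_nhds).dist (t (hd.comp tendsto_fst))
      (gt_mem_nhds ((dist_self _).trans_lt (half_pos hε))), ((hf (|z.2| + |d| + 2) _ (half_pos hε)).and
      (h.ev hd z.2)).prod_mk (continuous_snd.tendsto z (Ioo_mem_nhds (sub_one_lt _) (lt_add_one _)))]
      with p h1 ⟨⟨h2, h3, h4⟩, h5⟩
    have e1 : p.2.2 + (δ' p.1 - δ p.1) + δ p.1 = p.2.2 + δ' p.1 := by ring
    have h6 := h2 (p.2.1, p.2.2 + (δ' p.1 - δ p.1)) ((le_abs_self _).trans_lt (by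
      rw [Cut71.abs_pm, abs_lt]
      obtain ⟨h6, h7⟩ := abs_lt.1 h3
      constructor <;> linarith [h5.1, h5.2, le_abs_self z.2, neg_abs_le z.2, le_abs_self d,
        neg_abs_le d])) (e1.symm ▸ h4 _ h5)
    rw [e1, ← dist_eq_norm, dist_comm] at h6
    exact (dist_triangle _ _ _).trans_lt ((add_lt_add_of_lt_of_le h1 h6).trans_eq (add_halves ε))
  exact ⟨fun i => k (f := fun j => (c j).a i) (a.sa i).continuous fun R η hη => (h.cl R η hη).mono
      fun j hj z h1 h2 => (Win39.Cl.pt hj (x := z) ⟨trivial, trivial, h1, h2⟩).1 i,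
    k (f := fun j => (c j).Φ) a.sΦ.continuous fun R η hη => (h.cl R η hη).mono
      fun j hj z h1 h2 => (Win39.Cl.pt hj (x := z) ⟨trivial, trivial, h1, h2⟩).2⟩

theorem shf_zero (x : e.ZC) : shf 0 x = x := by simp only [shf, add_zero]; rfl

/-- the limit gauge on the cylinder -/
theorem limZ (𝒰 : Ultrafilter α) (h : Sd 𝒰 b J c δ univ x) (h' : Sd 𝒰 b J c' δ' univ x') {d : ℝ}
    (hd : Tendsto (fun i => δ' i - δ i) 𝒰 (𝓝 d)) (hu : ∀ᶠ i in (𝒰 : Filter α), ∀ z ∈ univ ×ˢ J i,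
      LG (IC e.Y.I) (u i) z ∧ At id (c' i) (e.cyl.act (u i) (c i)) z) :
    ∃ v, Gau (IC e.Y.I) v ∧ x' = e.cyl.act v (shf d x) := by
  have a : e.cyl.Adm (shf d x) := adm_of fun z =>
    Cut71.la_sh (.of_forall (At.pb _ _)) (h.adm _ ⟨trivial, trivial⟩)
  obtain ⟨v, v1, v2, -⟩ := limB e.D.Z.toPre e.m.J 𝒰 (u := fun i z => u i (z.1, z.2 + δ' i))
    (fun z => ⟨univ ×ˢ Ioo (z.2 - 1) (z.2 + 1), prod_mem_nhds univ_mem
      (Ioo_mem_nhds (sub_one_lt _) (lt_add_one _)), ((h.ev hd z.2).and hu).mono fun i hi y hy => by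
        obtain ⟨k1, k2⟩ := hi.2 (y.1, y.2 + δ' i) ⟨trivial, hi.1.2 _ hy.2⟩
        have k3 := act_φ (Cut71.sH_lit (e := e) (δ' i)) (x := y) trivial (u i) (c i)
        exact ⟨⟨k1.sm.comp y (Cut71.sm_sH _ y), (Cut71.sm_sH _ y).continuousAt.eventually k1.one⟩,
          fun k => (k2.1 k).trans (k3.1 k), k2.2.trans k3.2⟩⟩)
    (h.cv hd) (shf_zero x' ▸ h'.cv (δ' := δ') (by simp)) a.sa
    fun k z => (h'.adm z ⟨trivial, trivial⟩).sa k
  exact ⟨v, v1, v2⟩

theorem cont_L (he : e.OK) (a : e.cyl.Adm x) : Continuous fun t => L (sl x t) := by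
  have D : ∀ {N : Type} [NormedAddCommGroup N] [NormedSpace ℝ N] {f : e.Y.M × ℝ → N},
      Sm (IC e.Y.I) f → ∀ i, Continuous fun p : ℝ × e.Y.M => e.D.F.D i (fun y => f (y, p.1)) p.2 :=
    fun f i => ((e.D.Z.sm_D f (some i)).continuous.comp continuous_swap).congr fun p =>
      D_some_at e.D.F.toPre (SA.md (f _)) i
  refine (Win39.cont_lJ he (j := fun t => jt (sl x t)) ((continuous_pi fun k =>
    (a.sa (some k)).continuous.comp continuous_swap).prodMk ((continuous_pi fun i => continuous_pi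
      fun k => D (a.sa (some k)) i).prodMk ((a.sΦ.continuous.comp continuous_swap).prodMk
        (continuous_pi fun i => D a.sΦ i))))).congr fun t => ?_
  exact (Win39.L_jt he (fun k => sm_sl fun _ => a.sa _ _) (sm_sl fun _ => a.sΦ _)).symm

theorem lb_end (he : e.OK) (a : e.cyl.Adm x) (hd : Dc b x v) (g : En3.Gd v) :
    ∃ T, ∀ t, T < pm b * t → e.ψ (lb x t) = e.ψ (L v) := by
  obtain ⟨ε, h1, h2⟩ := Metric.eventually_nhds_iff.1 g.flat
  obtain ⟨η, h3, h4⟩ := Win39.cont1 he hd.1.1 (half_pos h1)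
  obtain ⟨T, h5⟩ := hd.2 η h3
  refine ⟨T + 1, fun t ht => h2 ((Win45.av_le ((cont_L he a).comp (by fun_prop)).continuousOn
    fun p hp => (h4 _ (sl_adm fun _ => .of_adm a _) (h5 _ ?_)).1).trans_lt (half_lt_self h1))⟩
  cases b <;> simp only [pm, if_true, Bool.false_eq_true, if_false] at ht ⊢ <;> linarith [hp.1, hp.2]

/-- centred trajectories are not shifted -/
theorem cen (he : e.OK) {β : Bool → e.YC} (a : e.cyl.Adm x) (hd : ∀ b, Dc b x (β b))
    (g : ∀ b, En3.Gd (β b)) (hψ : e.ψ (L (β false)) ≠ e.ψ (L (β true))) {d : ℝ}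
    {w : e.Y.M × ℝ → ℂ} (hw : Gau (IC e.Y.I) w)
    (k : ∀ y ∈ ({x, e.cyl.act w (shf d x)} : Set e.ZC),
      ∫ t, (1 - smoothTransition t) * (-1 * (e.ψ (lb y t) - e.ψ (L (β false)))) =
        ∫ t, smoothTransition t * (1 * (e.ψ (lb y t) - e.ψ (L (β true))))) : d = 0 := by
  have cb : Continuous bp := (smoothTransition.contDiff (n := 1)).continuous_deriv le_rfl
  obtain ⟨T, h1⟩ := lb_end he a (hd false) (g false)
  obtain ⟨T', h2⟩ := lb_end he a (hd true) (g true)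
  refine cen_real (f := fun t => e.ψ (lb x t)) (he.sψ.continuous.comp (continuousOn_univ.1
    (continuousOn_integral_of_compact_support (isCompact_Icc (a := 0) (b := 1))
      ((cb.comp continuous_snd).mul ((cont_L he a).comp (by fun_prop))).continuousOn
      fun _ _ _ h => mul_eq_zero_of_left (bp_zero h) _)))
    ((eventually_lt_atBot (-T)).mono fun t ht => h1 t (by simp only [pm]; norm_num; linarith))
    ((eventually_gt_atTop T').mono fun t ht => h2 t (by simpa [pm] using ht)) hψ ?_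
  rintro s (rfl | rfl)
  · simpa only [add_zero] using k x (by simp)
  · have : ∀ t, lb (e.cyl.act w (shf s x)) t = lb x (t + s) := fun t =>
      (lb_congr fun _ _ => (g true).inv _ _ (sl_adm fun _ => Cut71.la_sh (.of_forall (At.pb _ _))
        (.of_adm a _)) (eqv_sl _ fun _ => .of_gau hw _)).trans (Cut71.lb_shf _ _ _)
    simpa only [this] using k _ (.inr rfl)

end Crest.Agent.X212.Unq6
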